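import Vale.Agent.P248.Ellipsoids.Mahler

/-!
# The symmetric Mahler inequality for intersections of few ellipsoids
-/

namespace Vale.Agent.Results.P248.FewEllipsoids

open MeasureTheory Vale.Agent.P248.Ellipsoids

/-- Intersections of `m` centred ellipsoids or ellipsoidal cylinders in `ℝⁿ`,
`1000 m log (4 m) ≤ n`, satisfy the symmetric Mahler inequality with an exponential margin; for
`m log m = o(n)` their volume product is that of the ball up to subexponential factors. -/
theorem result :
    (∀ (n m : ℕ) (A : Fin m → Matrix (Fin n) (Fin n) ℝ), 0 < n →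
      Bornology.IsBounded (ellInter A) → 1000 * m * Real.log (4 * m) ≤ (n : ℝ) →
      ENNReal.ofReal ((101 / 100 : ℝ) ^ n * (4 ^ n / n.factorial)) ≤
        volume (ellInter A) * volume (polarSet (ellInter A))) ∧
    ∀ ε : ℝ, 0 < ε → ∃ δ : ℝ, 0 < δ ∧ ∀ (n m : ℕ) (A : Fin m → Matrix (Fin n) (Fin n) ℝ),
      0 < n → Bornology.IsBounded (ellInter A) → (m : ℝ) * Real.log (4 * m) ≤ δ * n →
      ENNReal.ofReal (Real.exp (-(ε * n))) * (volume (unitBall n) * volume (unitBall n)) ≤
        volume (ellInter A) * volume (polarSet (ellInter A)) :=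
  ⟨fun _ _ A hn hb hm => mahler_few A hn hb hm, reverse_santalo_few⟩

end Vale.Agent.Results.P248.FewEllipsoids
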