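import Vale.Agent.P248.FewFacets.Product
import Vale.Agent.P248.FewVertices.Polytope
import Vale.Agent.P248.FewVertices.MassSection

/-!
# The volume product of polytopes with few facets or few vertices
-/

namespace Vale.Agent.Results.P248.FewFacetPairs

open MeasureTheory Vale.Agent.P248.Ellipsoids
open scoped Nat

/-- A bounded intersection of `N` symmetric slabs in `ℝⁿ` has volume product at least
`exp (-(N - n) / 2) * 4 ^ n / n!`; for `100 (N - n) ≤ 48 n` this exceeds `π ^ n / n!`.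
A polytope with at most `n + 1 + k` facets, or at most `n + 1 + k` vertices, has volume product
at least `(2 π e) ^ (-k / 2) * (n + 1) ^ (n + 1) / n! ^ 2` about every interior point. -/
theorem result : (∀ (n N : ℕ) (a : Fin N → Fin n → ℝ),
    Bornology.IsBounded {x : Fin n → ℝ | ∀ i, |∑ j, a i j * x j| ≤ 1} →
      ENNReal.ofReal (Real.exp (-((N : ℝ) - n) / 2) * (4 ^ n / n !)) ≤
          volume {x : Fin n → ℝ | ∀ i, |∑ j, a i j * x j| ≤ 1} *
            volume (polarSet {x : Fin n → ℝ | ∀ i, |∑ j, a i j * x j| ≤ 1}) ∧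
        (0 < n → 100 * ((N : ℝ) - n) ≤ 48 * n →
          ENNReal.ofReal (Real.pi ^ n / n !) <
            volume {x : Fin n → ℝ | ∀ i, |∑ j, a i j * x j| ≤ 1} *
              volume (polarSet {x : Fin n → ℝ | ∀ i, |∑ j, a i j * x j| ≤ 1}))) ∧
    (∀ (n N k : ℕ), 0 < n → N ≤ n + 1 + k → ∀ (a : Fin N → Fin n → ℝ) (β : Fin N → ℝ),
      Bornology.IsBounded {x : Fin n → ℝ | ∀ i, ∑ j, a i j * x j ≤ β i} →
      ∀ z ∈ interior {x : Fin n → ℝ | ∀ i, ∑ j, a i j * x j ≤ β i},
        ENNReal.ofReal ((2 * Real.pi * Real.exp 1) ^ (-(k : ℝ) / 2) *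
            (((n : ℝ) + 1) ^ (n + 1) / (n ! : ℝ) ^ 2)) ≤
          volume {x : Fin n → ℝ | ∀ i, ∑ j, a i j * x j ≤ β i} *
            volume (polarSet
              ((fun x => x - z) '' {x : Fin n → ℝ | ∀ i, ∑ j, a i j * x j ≤ β i}))) ∧
    ∀ (n N k : ℕ), 0 < n → N ≤ n + 1 + k → ∀ (p : Fin N → Fin n → ℝ),
      ∀ z ∈ interior (convexHull ℝ (Set.range p)),
        ENNReal.ofReal ((2 * Real.pi * Real.exp 1) ^ (-(k : ℝ) / 2) *
            (((n : ℝ) + 1) ^ (n + 1) / (n ! : ℝ) ^ 2)) ≤
          volume (convexHull ℝ (Set.range p)) *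
            volume (polarSet ((fun x => x - z) '' convexHull ℝ (Set.range p))) := by
  refine ⟨?_, fun n N k hn hk a β hb z hz =>
      Vale.Agent.P248.FewVertices.facets_bound Vale.Agent.P248.FewVertices.mass_lower
        hn hk a β hb hz,
    fun n N k hn hk p z hz =>
      Vale.Agent.P248.FewVertices.vertices_bound Vale.Agent.P248.FewVertices.mass_lower
        hn hk p hz⟩
  intro n N a hb
  have h := Vale.Agent.P248.FewFacets.product_slabs a hb
  refine ⟨h, fun hn hk => lt_of_lt_of_le ?_ h⟩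
  refine (ENNReal.ofReal_lt_ofReal_iff (by positivity)).2 ?_
  rw [← mul_div_assoc]
  gcongr
  have he : Real.exp (6 / 25) < 128 / 100 := by
    refine (Real.exp_bound' (by norm_num) (by norm_num) (n := 5) (by norm_num)).trans_lt ?_
    norm_num [Finset.sum_range_succ, Nat.factorial]
  have h4 : Real.pi < Real.exp (-(6 / 25)) * 4 := by
    rw [Real.exp_neg, ← div_eq_inv_mul, lt_div_iff₀ (Real.exp_pos _)]
    have he' : Real.exp (6 / 25) ≤ 12713 / 10000 := by
      refine (Real.exp_bound' (by norm_num) (by norm_num) (n := 6) (by norm_num)).trans ?_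
      norm_num [Finset.sum_range_succ, Nat.factorial]
    nlinarith [Real.pi_lt_d6, Real.pi_pos, Real.exp_pos (6 / 25 : ℝ), he]
  calc Real.pi ^ n < (Real.exp (-(6 / 25)) * 4) ^ n :=
        pow_lt_pow_left₀ h4 Real.pi_pos.le hn.ne'
    _ ≤ Real.exp (-((N : ℝ) - n) / 2) * 4 ^ n := by
        rw [mul_pow, ← Real.exp_nat_mul]
        gcongr
        linarith

end Vale.Agent.Results.P248.FewFacetPairs
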