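import Vale.Agent.P248.Three.Equality
import Vale.Agent.P248.Three.EqualityLocal
import Vale.Agent.P248.Three.Polar
import Vale.Agent.P248.Three.Volume
import Vale.Agent.P248.Three.Count

/-!
P248: the general Mahler conjecture in dimension three, the inequality with its equality case, for
every convex body.
-/

open MeasureTheory Vale.Agent.P248.Three
open scoped Nat

namespace Vale.Agent.Results.P248.GeneralMahlerR3

theorem result :
    ∀ K : Set (Fin 3 → ℝ), IsCompact K → Convex ℝ K → (interior K).Nonempty →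
      (∀ z ∈ interior K, ((3 : ℝ) + 1) ^ (3 + 1) / ((3 ! : ℕ) : ℝ) ^ 2 ≤
        (volume K).toReal *
          (volume {y : Fin 3 → ℝ | ∀ x ∈ K, ∑ i, y i * (x i - z i) ≤ 1}).toReal) ∧
      ((⨅ z : interior K, (volume K).toReal *
          (volume {y : Fin 3 → ℝ | ∀ x ∈ K, ∑ i, y i * (x i - (z : Fin 3 → ℝ) i) ≤ 1}).toReal) =
          ((3 : ℝ) + 1) ^ (3 + 1) / ((3 ! : ℕ) : ℝ) ^ 2 ↔
        ∃ a : Fin 4 → (Fin 3 → ℝ),
          AffineIndependent ℝ a ∧ K = convexHull ℝ (Set.range a)) := by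
  intro K hK hc hs
  have e : ∀ z : Fin 3 → ℝ, (volume {y : Fin 3 → ℝ | ∀ x ∈ K, ∑ i, y i * (x i - z i) ≤ 1}).toReal =
      polVol K z := fun z => by
    rw [polVol]
    congr 2
    ext y
    simp [Vale.Agent.P248.Ellipsoids.polarSet]
  have hn : ((3 : ℝ) + 1) ^ (3 + 1) / ((3 ! : ℕ) : ℝ) ^ 2 = 64 / 9 := by norm_num [Nat.factorial]
  simp only [e, hn]
  exact ⟨fun z hz => main_of Polar.polarStmt volumeStmt countStmt hK hc hz,
    (equality_of (stable_of Polar.polarStmt volumeStmt countStmt localStmt) hK hc hs).2⟩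

end Vale.Agent.Results.P248.GeneralMahlerR3
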