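import Vale.Agent.P248.LpMahler.Main
import Vale.Agent.P248.LpMahler.Lewis
import Vale.Agent.P248.LpMahler.ProductLower
import Vale.Agent.P248.LpMahler.Numeric

/-!
P248: the symmetric Mahler inequality, strict, for unit balls of subspaces of `L_p`,
`8/7 ≤ p ≤ 8`, of dimension at least `400`.
-/

open MeasureTheory Vale.Agent.P248
open scoped Nat

namespace Vale.Agent.Results.P248.LpSubspaces

theorem result (n : ℕ) (hn : 400 ≤ n) (Ω : Type) [MeasurableSpace Ω] (μ : Measure Ω)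
    (f : Fin n → Ω → ℝ) (p : ℝ) (hp : 8 / 7 ≤ p) (hp' : p ≤ 8)
    (hf : ∀ j, MemLp (f j) (ENNReal.ofReal p) μ)
    (hb : Bornology.IsBounded {x : Fin n → ℝ | ∫ ω, |∑ j, x j * f j ω| ^ p ∂μ ≤ 1}) :
    (4 : ℝ) ^ n / (n ! : ℝ) <
      (volume {x : Fin n → ℝ | ∫ ω, |∑ j, x j * f j ω| ^ p ∂μ ≤ 1}).toReal *
      (volume (polarBody {x : Fin n → ℝ | ∫ ω, |∑ j, x j * f j ω| ^ p ∂μ ≤ 1})).toReal :=
  LpMahler.main_general LpMahler.lewis LpMahler.productLower LpMahler.ratioNumeric hn μ f hp hp'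
    hf hb

end Vale.Agent.Results.P248.LpSubspaces
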